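import Mathlib.GroupTheory.PGroup
import Mathlib.GroupTheory.Rank
import Mathlib.GroupTheory.Nilpotent
import Mathlib.GroupTheory.FiniteAbelian.Basic

/-!
# P241, block P4: group theory of `ℓ(G, H)`

* `Chain H L s` : a chain `H = c 0, …, c s = L` with `c (i + 1) = c i ⊔ ⟨x⟩`, `x` normalizing `c i`;
* `ell H = ℓ(G, H)`, literally the definition of the starting files;
* `ell_top`, `one_le_ell`, `chain_ell`, `ell_conj`;
* `ell_le_add_card`, `ell_le_add_rank` : `ℓ(G, A) ≤ ℓ(G, B) + k` if `A ◁ B`, `B/A` is commutative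
  and generated by `k` elements;
* `topDown` : the top-down induction over the conjugacy classes of subgroups;
* `exists_surj_gens` : a finite commutative `p`-group `V` has a surjection to `(ℤ/p)^k` and `k`
  generators, `k = Group.rank V`.
-/

set_option autoImplicit false

namespace Vale.Agent.P241.H122

variable {G : Type} [Group G]

/-- A chain `H = c 0 ◁ c 1 ◁ ⋯ ◁ c s = L` with cyclic quotients. -/
def Chain (H L : Subgroup G) (s : ℕ) : Prop :=
  ∃ c : ℕ → Subgroup G, c 0 = H ∧ c s = L ∧
    ∀ i < s, ∃ x ∈ Subgroup.normalizer (c i : Set G), c (i + 1) = c i ⊔ Subgroup.zpowers x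

/-- `ℓ(G, H)`: the least length of a chain from `H` to `G` with cyclic quotients. -/
noncomputable def ell {G : Type} [Group G] (H : Subgroup G) : ℕ :=
  sInf {s | ∃ c : ℕ → Subgroup G, c 0 = H ∧ c s = ⊤ ∧
    ∀ i < s, ∃ x ∈ Subgroup.normalizer (c i : Set G), c (i + 1) = c i ⊔ Subgroup.zpowers x}

theorem ell_le {H : Subgroup G} {s : ℕ} (h : Chain H ⊤ s) : ell H ≤ s := Nat.sInf_le h

theorem Chain.refl (H : Subgroup G) : Chain H H 0 :=
  ⟨fun _ => H, rfl, rfl, fun i hi => absurd hi (Nat.not_lt_zero i)⟩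

theorem Chain.cons {H L : Subgroup G} {s : ℕ} {x : G}
    (hx : x ∈ Subgroup.normalizer (H : Set G)) (h : Chain (H ⊔ Subgroup.zpowers x) L s) :
    Chain H L (s + 1) := by
  obtain ⟨c, h0, h1, h2⟩ := h
  refine ⟨fun i => Nat.casesOn i H c, rfl, h1, fun i hi => ?_⟩
  cases i with
  | zero => exact ⟨x, hx, h0⟩
  | succ i => exact h2 i (by omega)

theorem Chain.trans {H L M : Subgroup G} {s s' : ℕ}
    (h : Chain H L s) (h' : Chain L M s') : Chain H M (s + s') := by
  induction s generalizing H with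
  | zero =>
    obtain ⟨c, h0, h1, -⟩ := h
    rw [Nat.zero_add]
    rw [← h0, h1]
    exact h'
  | succ s ih =>
    obtain ⟨c, h0, h1, h2⟩ := h
    obtain ⟨x, hx, hc⟩ := h2 0 (by omega)
    rw [h0] at hx hc
    have h3 : Chain (H ⊔ Subgroup.zpowers x) L s :=
      ⟨fun i => c (i + 1), hc, h1, fun i hi => h2 (i + 1) (by omega)⟩
    have h4 := Chain.cons hx (ih h3)
    rwa [show s + 1 + s' = s + s' + 1 by omega]

theorem Chain.map {Q : Type} [Group Q] (e : G ≃* Q) {H L : Subgroup G} {s : ℕ}
    (h : Chain H L s) : Chain (H.map e.toMonoidHom) (L.map e.toMonoidHom) s := by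
  obtain ⟨c, h0, h1, h2⟩ := h
  subst h0 h1
  refine ⟨fun i => (c i).map e.toMonoidHom, rfl, rfl, fun i hi => ?_⟩
  obtain ⟨x, hx, hc⟩ := h2 i hi
  refine ⟨e x, ?_, ?_⟩
  · rw [Subgroup.mem_normalizer_iff] at hx ⊢
    intro y
    constructor
    · rintro ⟨z, hz, rfl⟩
      exact ⟨x * z * x⁻¹, (hx z).1 hz, by simp⟩
    · rintro ⟨z, hz, hz'⟩
      refine ⟨x⁻¹ * z * x, (hx _).2 (by simpa [mul_assoc] using hz), ?_⟩
      have h3 : e z = e x * y * (e x)⁻¹ := hz'
      change e (x⁻¹ * z * x) = y
      rw [map_mul, map_mul, map_inv, h3]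
      group
  · change (c (i + 1)).map e.toMonoidHom = (c i).map e.toMonoidHom ⊔ Subgroup.zpowers (e x)
    rw [hc, Subgroup.map_sup, MonoidHom.map_zpowers]
    rfl

theorem chain_ell {p : ℕ} [Fact p.Prime] [Finite G] (hG : IsPGroup p G) (H : Subgroup G) :
    Chain H ⊤ (ell H) := by
  refine Nat.sInf_mem (s := {s | Chain H ⊤ s}) ?_
  have key : ∀ n : ℕ, ∀ K : Subgroup G, K.index ≤ n → ∃ s, Chain K ⊤ s := by
    intro n
    induction n with
    | zero =>
      intro K hK
      exact absurd (Nat.le_zero.1 hK) K.index_ne_zero_of_finite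
    | succ n ih =>
      intro K hK
      by_cases hT : K = ⊤
      · subst hT
        exact ⟨0, Chain.refl ⊤⟩
      have hnil := hG.isNilpotent
      have h1 := (Group.normalizerCondition_of_isNilpotent (G := G)) K (lt_top_iff_ne_top.2 hT)
      obtain ⟨x, hx, hx'⟩ := SetLike.exists_of_lt h1
      have h2 : K < K ⊔ Subgroup.zpowers x := by
        refine lt_of_le_of_ne le_sup_left fun h => hx' ?_
        rw [h]
        exact Subgroup.mem_sup_right (Subgroup.mem_zpowers x)
      have h3 : (K ⊔ Subgroup.zpowers x).index < K.index := by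
        have h4 := Subgroup.relIndex_mul_index h2.le
        have h5 : 1 < K.relIndex (K ⊔ Subgroup.zpowers x) := by
          have h6 : K.relIndex (K ⊔ Subgroup.zpowers x) ≠ 0 := by
            intro h7
            rw [h7, Nat.zero_mul] at h4
            exact K.index_ne_zero_of_finite h4.symm
          have h8 : K.relIndex (K ⊔ Subgroup.zpowers x) ≠ 1 := by
            rw [Ne, Subgroup.relIndex_eq_one]
            exact not_le_of_gt h2
          omega
        have h9 : 0 < (K ⊔ Subgroup.zpowers x).index :=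
          Nat.pos_of_ne_zero (Subgroup.index_ne_zero_of_finite)
        rw [← h4]
        calc (K ⊔ Subgroup.zpowers x).index = 1 * (K ⊔ Subgroup.zpowers x).index :=
              (one_mul _).symm
          _ < K.relIndex (K ⊔ Subgroup.zpowers x) * (K ⊔ Subgroup.zpowers x).index :=
              Nat.mul_lt_mul_of_pos_right h5 h9
      obtain ⟨s, hs⟩ := ih (K ⊔ Subgroup.zpowers x) (by omega)
      exact ⟨s + 1, Chain.cons hx hs⟩
  exact key _ H le_rfl

theorem ell_top : ell (⊤ : Subgroup G) = 0 :=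
  Nat.le_zero.1 (ell_le (Chain.refl ⊤))

theorem one_le_ell {p : ℕ} [Fact p.Prime] [Finite G] (hG : IsPGroup p G) {H : Subgroup G}
    (hH : H ≠ ⊤) : 1 ≤ ell H := by
  by_contra h
  obtain ⟨c, h0, h1, -⟩ := chain_ell hG H
  rw [show ell H = 0 by omega] at h1
  exact hH (h0.symm.trans h1)

theorem ell_le_add {p : ℕ} [Fact p.Prime] [Finite G] (hG : IsPGroup p G) {A B : Subgroup G}
    {s : ℕ} (h : Chain A B s) : ell A ≤ ell B + s := by
  have h1 := ell_le (h.trans (chain_ell hG B))
  omega

theorem ell_map {Q : Type} [Group Q] {p : ℕ} [Fact p.Prime] [Finite G]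
    (hG : IsPGroup p G) (e : G ≃* Q) (H : Subgroup G) : ell (H.map e.toMonoidHom) = ell H := by
  have hfin : Finite Q := Finite.of_equiv G e.toEquiv
  have hQ : IsPGroup p Q := hG.of_equiv e
  have h1 : ∀ {G Q : Type} [Group G] [Group Q] [Finite G] (_ : IsPGroup p G) (e : G ≃* Q)
      (H : Subgroup G), ell (H.map e.toMonoidHom) ≤ ell H := by
    intro G Q _ _ _ hG e H
    have h2 := (chain_ell hG H).map e
    rw [Subgroup.map_top_of_surjective _ e.surjective] at h2
    exact ell_le h2
  refine le_antisymm (h1 hG e H) ?_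
  have h3 := h1 hQ e.symm (H.map e.toMonoidHom)
  rw [Subgroup.map_map] at h3
  have h4 : (e.symm.toMonoidHom.comp e.toMonoidHom) = MonoidHom.id G := by
    ext x
    simp
  rwa [h4, Subgroup.map_id] at h3

theorem ell_conj {p : ℕ} [Fact p.Prime] [Finite G] (hG : IsPGroup p G) (g : G)
    (H : Subgroup G) : ell (H.map (MulAut.conj g).toMonoidHom) = ell H :=
  ell_map hG (MulAut.conj g) H

/-- A group between `A` and `A ⊔ S` is normalized by `S` if the commutators lie in `A`. -/
theorem chain_of_gens {A B : Subgroup G} (hcomm : ∀ b ∈ B, ∀ b' ∈ B, b * b' * b⁻¹ * b'⁻¹ ∈ A)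
    (hAB : A ≤ B) (S : Finset G) (hS : ∀ x ∈ S, x ∈ B) :
    Chain A (A ⊔ Subgroup.closure (S : Set G)) S.card := by
  classical
  have hnorm : ∀ C : Subgroup G, A ≤ C → C ≤ B → ∀ x ∈ B,
      x ∈ Subgroup.normalizer (C : Set G) := by
    intro C hAC hCB x hx
    have h1 : ∀ x ∈ B, ∀ c ∈ C, x * c * x⁻¹ ∈ C := by
      intro x hx c hc
      have h2 := hAC (hcomm x hx c (hCB hc))
      have h3 := C.mul_mem h2 hc
      simpa [mul_assoc] using h3
    rw [Subgroup.mem_normalizer_iff]
    intro c
    refine ⟨fun hc => h1 x hx c hc, fun hc => ?_⟩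
    have h4 := h1 x⁻¹ (B.inv_mem hx) _ hc
    simpa [mul_assoc] using h4
  have key : ∀ S : Finset G, (∀ x ∈ S, x ∈ B) →
      Chain A (A ⊔ Subgroup.closure (S : Set G)) S.card := by
    intro S
    induction S using Finset.induction_on with
    | empty =>
      intro _
      simpa using Chain.refl A
    | insert x S hxS ih =>
      intro hS
      have h1 := ih fun y hy => hS y (Finset.mem_insert_of_mem hy)
      have hx : x ∈ B := hS x (Finset.mem_insert_self x S)
      have h2 : A ⊔ Subgroup.closure (S : Set G) ≤ B :=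
        sup_le hAB ((Subgroup.closure_le B).2 fun y hy =>
          hS y (Finset.mem_insert_of_mem (Finset.mem_coe.1 hy)))
      have h3 := Chain.cons (L := A ⊔ Subgroup.closure (insert x S : Finset G))
        (s := 0) (hnorm _ le_sup_left h2 x hx) (by
          have h4 : A ⊔ Subgroup.closure (S : Set G) ⊔ Subgroup.zpowers x =
              A ⊔ Subgroup.closure ((insert x S : Finset G) : Set G) := by
            rw [Finset.coe_insert, Set.insert_eq, Set.union_comm, Subgroup.closure_union,
              Subgroup.zpowers_eq_closure, sup_assoc]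
          rw [h4]
          exact Chain.refl _)
      rw [Finset.card_insert_of_notMem hxS]
      exact h1.trans h3
  exact key S hS

theorem ell_le_add_card {p : ℕ} [Fact p.Prime] [Finite G] (hG : IsPGroup p G)
    {A B : Subgroup G} (hcomm : ∀ b ∈ B, ∀ b' ∈ B, b * b' * b⁻¹ * b'⁻¹ ∈ A)
    (S : Finset G) (hS : B = A ⊔ Subgroup.closure (S : Set G)) :
    ell A ≤ ell B + S.card := by
  have h1 := chain_of_gens hcomm (hS ▸ le_sup_left) S (fun x hx => by
    rw [hS]
    exact Subgroup.mem_sup_right (Subgroup.subset_closure hx))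
  rw [← hS] at h1
  exact ell_le_add hG h1

/-- If `A ◁ B` (that is, `B` normalizes `A`) and `B/A` is commutative, then
`ℓ(G, A) ≤ ℓ(G, B) + rank (B/A)`. -/
theorem ell_le_add_rank {p : ℕ} [Fact p.Prime] [Finite G] (hG : IsPGroup p G)
    {A B : Subgroup G} (hAB : A ≤ B) [hn : (A.subgroupOf B).Normal]
    (hc : ∀ x y : B ⧸ A.subgroupOf B, x * y = y * x) :
    ell A ≤ ell B + Group.rank (B ⧸ A.subgroupOf B) := by
  classical
  have hcomm : ∀ b ∈ B, ∀ b' ∈ B, b * b' * b⁻¹ * b'⁻¹ ∈ A := by
    intro b hb b' hb'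
    have h1 := hc (QuotientGroup.mk' (A.subgroupOf B) ⟨b, hb⟩)
      (QuotientGroup.mk' (A.subgroupOf B) ⟨b', hb'⟩)
    have h2 : QuotientGroup.mk' (A.subgroupOf B)
        (⟨b, hb⟩ * ⟨b', hb'⟩ * (⟨b, hb⟩ : B)⁻¹ * (⟨b', hb'⟩ : B)⁻¹) = 1 := by
      rw [map_mul, map_mul, map_mul, map_inv, map_inv, h1]
      group
    rw [← MonoidHom.mem_ker, QuotientGroup.ker_mk', Subgroup.mem_subgroupOf] at h2
    exact h2
  obtain ⟨T, hT, hT'⟩ := Group.rank_spec (B ⧸ A.subgroupOf B)
  choose f hf using QuotientGroup.mk'_surjective (A.subgroupOf B)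
  let S : Finset G := T.image fun t => (f t : G)
  have hS : B = A ⊔ Subgroup.closure (S : Set G) := by
    refine le_antisymm ?_ (sup_le hAB ((Subgroup.closure_le B).2 ?_))
    · intro b hb
      let C : Subgroup (B ⧸ A.subgroupOf B) :=
        ((A ⊔ Subgroup.closure (S : Set G)).subgroupOf B).map (QuotientGroup.mk' _)
      have h1 : (T : Set (B ⧸ A.subgroupOf B)) ⊆ C := by
        intro t ht
        refine ⟨f t, ?_, hf t⟩
        rw [SetLike.mem_coe, Subgroup.mem_subgroupOf]
        exact Subgroup.mem_sup_right (Subgroup.subset_closure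
          (Finset.mem_coe.2 (Finset.mem_image_of_mem _ (Finset.mem_coe.1 ht))))
      have h2 : QuotientGroup.mk' (A.subgroupOf B) ⟨b, hb⟩ ∈ C := by
        have h3 := (Subgroup.closure_le C).2 h1
        rw [hT'] at h3
        exact h3 (Subgroup.mem_top _)
      obtain ⟨y, hy, hy'⟩ := h2
      rw [SetLike.mem_coe, Subgroup.mem_subgroupOf] at hy
      have h4 : y⁻¹ * ⟨b, hb⟩ ∈ A.subgroupOf B := by
        rw [← QuotientGroup.ker_mk' (A.subgroupOf B), MonoidHom.mem_ker, map_mul, map_inv, hy',
          inv_mul_cancel]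
      rw [Subgroup.mem_subgroupOf] at h4
      have h5 : b = (y : G) * ((y : G)⁻¹ * b) := by group
      rw [h5]
      exact Subgroup.mul_mem _ hy (Subgroup.mem_sup_left h4)
    · intro x hx
      obtain ⟨t, -, rfl⟩ := Finset.mem_image.1 (Finset.mem_coe.1 hx)
      exact (f t).2
  have h1 := ell_le_add_card hG hcomm S hS
  have h2 : S.card ≤ T.card := Finset.card_image_le
  omega

/-! ### Comparison with the definition of the problem -/

/-- There is a chain `H = c 0 ◁ c 1 ◁ ⋯ ◁ c s = G`, each group normal in the next, with cyclic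
quotients. -/
def HasCyclicChain {G : Type} [Group G] (H : Subgroup G) (s : ℕ) : Prop :=
  ∃ c : ℕ → Subgroup G, c 0 = H ∧ c s = ⊤ ∧ ∀ i < s, c i ≤ c (i + 1) ∧
    ∃ _ : ((c i).subgroupOf (c (i + 1))).Normal,
      IsCyclic (c (i + 1) ⧸ (c i).subgroupOf (c (i + 1)))

theorem step_iff (A B : Subgroup G) :
    (∃ x ∈ Subgroup.normalizer (A : Set G), B = A ⊔ Subgroup.zpowers x) ↔
      A ≤ B ∧ ∃ _ : (A.subgroupOf B).Normal, IsCyclic (B ⧸ A.subgroupOf B) := by
  constructor
  · rintro ⟨x, hx, rfl⟩
    have hle : A ⊔ Subgroup.zpowers x ≤ Subgroup.normalizer (A : Set G) :=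
      sup_le Subgroup.le_normalizer (by rwa [Subgroup.zpowers_le])
    have hn : (A.subgroupOf (A ⊔ Subgroup.zpowers x)).Normal :=
      Subgroup.normal_subgroupOf_of_le_normalizer hle
    refine ⟨le_sup_left, hn, ?_⟩
    have hxB : x ∈ A ⊔ Subgroup.zpowers x :=
      Subgroup.mem_sup_right (Subgroup.mem_zpowers x)
    set B := A ⊔ Subgroup.zpowers x with hB
    let g : B ⧸ A.subgroupOf B := QuotientGroup.mk' (A.subgroupOf B) ⟨x, hxB⟩
    refine ⟨⟨g, ?_⟩⟩
    intro y
    obtain ⟨y, rfl⟩ := QuotientGroup.mk'_surjective _ y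
    let S : Subgroup B := (Subgroup.zpowers g).comap (QuotientGroup.mk' (A.subgroupOf B))
    have hS : B ≤ S.map B.subtype := by
      conv_lhs => rw [hB]
      refine sup_le ?_ ?_
      · intro a ha
        refine ⟨⟨a, hB ▸ Subgroup.mem_sup_left ha⟩, ?_, rfl⟩
        change QuotientGroup.mk' (A.subgroupOf B) ⟨a, _⟩ ∈ Subgroup.zpowers g
        have : QuotientGroup.mk' (A.subgroupOf B) ⟨a, hB ▸ Subgroup.mem_sup_left ha⟩ = 1 := by
          rw [← MonoidHom.mem_ker, QuotientGroup.ker_mk']
          exact ha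
        rw [this]
        exact Subgroup.one_mem _
      · rw [Subgroup.zpowers_le]
        exact ⟨⟨x, hxB⟩, Subgroup.mem_zpowers g, rfl⟩
    obtain ⟨z, hz, hz'⟩ := hS y.2
    have : z = y := Subtype.ext hz'
    subst this
    exact hz
  · rintro ⟨h1, h2, h3⟩
    obtain ⟨g, hg⟩ := h3.exists_generator
    obtain ⟨x, rfl⟩ := QuotientGroup.mk'_surjective _ g
    have hle : B ≤ Subgroup.normalizer (A : Set G) :=
      (Subgroup.normal_subgroupOf_iff_le_normalizer h1).1 h2
    refine ⟨x, hle x.2, le_antisymm ?_ (sup_le h1 ?_)⟩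
    · intro b hb
      obtain ⟨n, hn⟩ := Subgroup.mem_zpowers_iff.1 (hg (QuotientGroup.mk' _ ⟨b, hb⟩))
      have h4 : (⟨b, hb⟩ : B) * (x ^ n)⁻¹ ∈ A.subgroupOf B := by
        rw [← QuotientGroup.ker_mk' (A.subgroupOf B), MonoidHom.mem_ker, map_mul, map_inv,
          map_zpow, hn, mul_inv_cancel]
      have h5 : b * ((x : G) ^ n)⁻¹ ∈ A := h4
      have h6 : b = (b * ((x : G) ^ n)⁻¹) * (x : G) ^ n := by group
      rw [h6]
      exact Subgroup.mul_mem _ (Subgroup.mem_sup_left h5)
        (Subgroup.mem_sup_right ⟨n, rfl⟩)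
    · rw [Subgroup.zpowers_le]
      exact x.2

theorem hasCyclicChain_iff {H : Subgroup G} {s : ℕ} : HasCyclicChain H s ↔ Chain H ⊤ s := by
  constructor
  · rintro ⟨c, h0, h1, h2⟩
    exact ⟨c, h0, h1, fun i hi => (step_iff _ _).2 (h2 i hi)⟩
  · rintro ⟨c, h0, h1, h2⟩
    exact ⟨c, h0, h1, fun i hi => (step_iff _ _).1 (h2 i hi)⟩

theorem sInf_hasCyclicChain (H : Subgroup G) : sInf {s | HasCyclicChain H s} = ell H :=
  congrArg sInf (Set.ext fun _ => hasCyclicChain_iff)

/-- The preimage in `G` of a subgroup of `N(A)/A`. -/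
def lift (A : Subgroup G)
    (V : Subgroup (Subgroup.normalizer (A : Set G) ⧸
      A.subgroupOf (Subgroup.normalizer (A : Set G)))) : Subgroup G :=
  (V.comap (QuotientGroup.mk' (A.subgroupOf (Subgroup.normalizer (A : Set G))))).map
    (Subgroup.normalizer (A : Set G)).subtype

theorem le_lift (A : Subgroup G)
    (V : Subgroup (Subgroup.normalizer (A : Set G) ⧸
      A.subgroupOf (Subgroup.normalizer (A : Set G)))) : A ≤ lift A V := by
  intro a ha
  refine ⟨⟨a, Subgroup.le_normalizer ha⟩, ?_, rfl⟩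
  rw [SetLike.mem_coe, Subgroup.mem_comap]
  have h1 : QuotientGroup.mk' (A.subgroupOf (Subgroup.normalizer (A : Set G)))
      ⟨a, Subgroup.le_normalizer ha⟩ = 1 := by
    rw [← MonoidHom.mem_ker, QuotientGroup.ker_mk']
    exact ha
  rw [h1]
  exact V.one_mem

theorem mem_lift {A : Subgroup G}
    {V : Subgroup (Subgroup.normalizer (A : Set G) ⧸
      A.subgroupOf (Subgroup.normalizer (A : Set G)))} {g : G} :
    g ∈ lift A V ↔ ∃ h : g ∈ Subgroup.normalizer (A : Set G),
      QuotientGroup.mk' (A.subgroupOf (Subgroup.normalizer (A : Set G))) ⟨g, h⟩ ∈ V := by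
  constructor
  · rintro ⟨x, hx, rfl⟩
    exact ⟨x.2, hx⟩
  · rintro ⟨h, hV⟩
    exact ⟨⟨g, h⟩, hV, rfl⟩

theorem lift_le_normalizer (A : Subgroup G)
    (V : Subgroup (Subgroup.normalizer (A : Set G) ⧸
      A.subgroupOf (Subgroup.normalizer (A : Set G)))) :
    lift A V ≤ Subgroup.normalizer (A : Set G) := fun _ hg => (mem_lift.1 hg).1

theorem lift_ne {A : Subgroup G}
    {V : Subgroup (Subgroup.normalizer (A : Set G) ⧸
      A.subgroupOf (Subgroup.normalizer (A : Set G)))} (hV : V ≠ ⊥) : A < lift A V := by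
  refine lt_of_le_of_ne (le_lift A V) fun h => hV ?_
  rw [Subgroup.eq_bot_iff_forall]
  intro v hv
  obtain ⟨x, rfl⟩ := QuotientGroup.mk'_surjective _ v
  have h1 : (x : G) ∈ lift A V := mem_lift.2 ⟨x.2, hv⟩
  rw [← h] at h1
  rw [← MonoidHom.mem_ker, QuotientGroup.ker_mk']
  exact h1

/-- `ℓ(G, A) ≤ ℓ(G, B) + k` for the preimage `B` of a commutative subgroup `V` of `N(A)/A` with
`k` generators. -/
theorem ell_le_lift_card {p : ℕ} [Fact p.Prime] [Finite G] (hG : IsPGroup p G) {A : Subgroup G}
    {V : Subgroup (Subgroup.normalizer (A : Set G) ⧸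
      A.subgroupOf (Subgroup.normalizer (A : Set G)))} (hc : ∀ x ∈ V, ∀ y ∈ V, x * y = y * x)
    (T : Finset (Subgroup.normalizer (A : Set G) ⧸
      A.subgroupOf (Subgroup.normalizer (A : Set G)))) (hT : Subgroup.closure (T : Set _) = V) :
    ell A ≤ ell (lift A V) + T.card := by
  classical
  choose f hf using QuotientGroup.mk'_surjective
    (A.subgroupOf (Subgroup.normalizer (A : Set G)))
  let S : Finset G := T.image fun t => (f t : G)
  have hTV : ∀ t ∈ T, t ∈ V := fun t ht =>
    hT ▸ Subgroup.subset_closure (Finset.mem_coe.2 ht)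
  have hcomm : ∀ b ∈ lift A V, ∀ b' ∈ lift A V, b * b' * b⁻¹ * b'⁻¹ ∈ A := by
    intro b hb b' hb'
    obtain ⟨h1, h2⟩ := mem_lift.1 hb
    obtain ⟨h3, h4⟩ := mem_lift.1 hb'
    have h5 : QuotientGroup.mk' (A.subgroupOf (Subgroup.normalizer (A : Set G)))
        (⟨b, h1⟩ * ⟨b', h3⟩ * (⟨b, h1⟩ : Subgroup.normalizer (A : Set G))⁻¹ *
          (⟨b', h3⟩ : Subgroup.normalizer (A : Set G))⁻¹) = 1 := by
      rw [map_mul, map_mul, map_mul, map_inv, map_inv, hc _ h2 _ h4]
      group
    rw [← MonoidHom.mem_ker, QuotientGroup.ker_mk', Subgroup.mem_subgroupOf] at h5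
    exact h5
  have hS : lift A V = A ⊔ Subgroup.closure (S : Set G) := by
    refine le_antisymm ?_ (sup_le (le_lift A V) ((Subgroup.closure_le _).2 ?_))
    · intro b hb
      obtain ⟨h1, h2⟩ := mem_lift.1 hb
      let C : Subgroup (Subgroup.normalizer (A : Set G) ⧸
          A.subgroupOf (Subgroup.normalizer (A : Set G))) :=
        ((A ⊔ Subgroup.closure (S : Set G)).subgroupOf (Subgroup.normalizer (A : Set G))).map
          (QuotientGroup.mk' _)
      have h3 : (T : Set (Subgroup.normalizer (A : Set G) ⧸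
          A.subgroupOf (Subgroup.normalizer (A : Set G)))) ⊆ C := by
        intro t ht
        refine ⟨f t, ?_, hf t⟩
        rw [SetLike.mem_coe, Subgroup.mem_subgroupOf]
        exact Subgroup.mem_sup_right (Subgroup.subset_closure
          (Finset.mem_coe.2 (Finset.mem_image_of_mem _ (Finset.mem_coe.1 ht))))
      have h4 := (Subgroup.closure_le C).2 h3
      rw [hT] at h4
      obtain ⟨y, hy, hy'⟩ := h4 h2
      rw [SetLike.mem_coe, Subgroup.mem_subgroupOf] at hy
      have h5 : y⁻¹ * ⟨b, h1⟩ ∈ A.subgroupOf (Subgroup.normalizer (A : Set G)) := by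
        rw [← QuotientGroup.ker_mk' (A.subgroupOf (Subgroup.normalizer (A : Set G))),
          MonoidHom.mem_ker, map_mul, map_inv, hy', inv_mul_cancel]
      rw [Subgroup.mem_subgroupOf] at h5
      have h6 : b = (y : G) * ((y : G)⁻¹ * b) := by group
      rw [h6]
      exact Subgroup.mul_mem _ hy (Subgroup.mem_sup_left h5)
    · intro x hx
      obtain ⟨t, ht, rfl⟩ := Finset.mem_image.1 (Finset.mem_coe.1 hx)
      exact mem_lift.2 ⟨(f t).2, by
        have h1 := hTV t ht
        rwa [← hf t] at h1⟩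
  have h1 := ell_le_add_card hG hcomm S hS
  have h2 : S.card ≤ T.card := Finset.card_image_le
  omega

/-! ### The top-down induction -/

/-- Families of subgroups closed under conjugation and under passing to bigger subgroups. -/
def UpFamily (P : Set (Subgroup G)) : Prop :=
  (∀ A ∈ P, ∀ g : G, A.map (MulAut.conj g).toMonoidHom ∈ P) ∧ ∀ A ∈ P, ∀ B, A ≤ B → B ∈ P

/-- The conjugates of `A`. -/
def conjs (A : Subgroup G) : Set (Subgroup G) :=
  {B | ∃ g : G, B = A.map (MulAut.conj g).toMonoidHom}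

theorem UpFamily.not_le {P : Set (Subgroup G)} (hP : UpFamily P) {A B : Subgroup G}
    (hA : A ∉ P) (hB : B ∈ P) (g : G) : ¬ B ≤ A.map (MulAut.conj g).toMonoidHom := by
  intro h
  have h1 := hP.1 _ (hP.2 B hB _ h) g⁻¹
  rw [Subgroup.map_map] at h1
  apply hA
  convert h1
  have h2 : (MulAut.conj g⁻¹).toMonoidHom.comp (MulAut.conj g).toMonoidHom =
      MonoidHom.id G := by
    ext x
    simp [mul_assoc]
  rw [h2, Subgroup.map_id]

/-- **Top-down induction** over the conjugacy classes of subgroups. -/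
theorem topDown [Finite G] (Good : Set (Subgroup G) → Prop) (h0 : Good {⊤})
    (step : ∀ (P : Set (Subgroup G)) (A : Subgroup G), UpFamily P → ⊤ ∈ P → A ∉ P →
      (∀ B, A < B → B ∈ P) → (∀ B ∈ P, ∀ g : G, ¬ B ≤ A.map (MulAut.conj g).toMonoidHom) →
      Good P → Good (P ∪ conjs A)) : Good Set.univ := by
  classical
  have key : ∀ n : ℕ, ∀ P : Set (Subgroup G), UpFamily P → ⊤ ∈ P → Good P →
      (Pᶜ).ncard ≤ n → Good Set.univ := by
    intro n
    induction n with
    | zero =>
      intro P _ _ hg hn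
      have h1 : Pᶜ = ∅ := (Set.ncard_eq_zero (Set.toFinite _)).1 (Nat.le_zero.1 hn)
      rwa [Set.compl_empty_iff.1 h1] at hg
    | succ n ih =>
      intro P hP hT hg hn
      by_cases hE : Pᶜ = ∅
      · rwa [Set.compl_empty_iff.1 hE] at hg
      have hE' : (Pᶜ).Nonempty := Set.nonempty_iff_ne_empty.2 hE
      obtain ⟨A, hA, hmax⟩ := Set.Finite.exists_maximalFor (fun B : Subgroup G => Nat.card B)
        (Pᶜ) (Set.toFinite _) hE'
      have hbig : ∀ B, A < B → B ∈ P := by
        intro B hB
        by_contra hB'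
        have h1 : Nat.card A < Nat.card B := by
          have h2 := Set.ncard_lt_ncard (SetLike.coe_ssubset_coe.2 hB) (Set.toFinite _)
          simpa [← Nat.card_coe_set_eq] using h2
        exact absurd (hmax hB' h1.le) (not_le_of_gt h1)
      have h2 := step P A hP hT hA hbig (fun B hB g => hP.not_le hA hB g) hg
      refine ih (P ∪ conjs A) ?_ (Or.inl hT) h2 ?_
      · constructor
        · rintro B (hB | ⟨g, rfl⟩) k
          · exact Or.inl (hP.1 B hB k)
          · refine Or.inr ⟨k * g, ?_⟩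
            rw [Subgroup.map_map]
            congr 1
            ext x
            simp [mul_assoc]
        · rintro B (hB | ⟨g, rfl⟩) C hC
          · exact Or.inl (hP.2 B hB C hC)
          · rcases hC.eq_or_lt with h | h
            · exact Or.inr ⟨g, h.symm⟩
            · refine Or.inl ?_
              have h3 : A < C.map (MulAut.conj g⁻¹).toMonoidHom := by
                have h4 : (A.map (MulAut.conj g).toMonoidHom).map
                    (MulAut.conj g⁻¹).toMonoidHom = A := by
                  rw [Subgroup.map_map]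
                  have h5 : (MulAut.conj g⁻¹).toMonoidHom.comp (MulAut.conj g).toMonoidHom =
                      MonoidHom.id G := by
                    ext x
                    simp [mul_assoc]
                  rw [h5, Subgroup.map_id]
                have h6 := (Subgroup.map_lt_map_iff_of_injective
                  (f := (MulAut.conj g⁻¹).toMonoidHom) (MulAut.conj g⁻¹).injective).2 h
                rwa [h4] at h6
              have h4 := hP.1 _ (hbig _ h3) g
              rw [Subgroup.map_map] at h4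
              have h5 : (MulAut.conj g).toMonoidHom.comp (MulAut.conj g⁻¹).toMonoidHom =
                  MonoidHom.id G := by
                ext x
                simp [mul_assoc]
              rwa [h5, Subgroup.map_id] at h4
      · have h3 : (P ∪ conjs A)ᶜ ⊂ Pᶜ := by
          refine Set.ssubset_iff_subset_ne.2 ⟨Set.compl_subset_compl.2 Set.subset_union_left, ?_⟩
          intro h
          have h4 : A ∈ (P ∪ conjs A)ᶜ := h ▸ hA
          refine h4 (Or.inr ⟨1, ?_⟩)
          have h5 : (MulAut.conj (1 : G)).toMonoidHom = MonoidHom.id G := by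
            ext x
            simp
          rw [h5, Subgroup.map_id]
        have h4 := Set.ncard_lt_ncard h3 (Set.toFinite _)
        omega
  refine key _ {⊤} ?_ rfl h0 le_rfl
  constructor
  · rintro A hA g
    rw [Set.mem_singleton_iff] at hA ⊢
    rw [hA]
    exact Subgroup.map_top_of_surjective _ (MulAut.conj g).surjective
  · rintro A hA B hB
    rw [Set.mem_singleton_iff] at hA ⊢
    rw [hA] at hB
    exact top_le_iff.1 hB

end Vale.Agent.P241.H122
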