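import Mathlib.GroupTheory.PGroup
import Mathlib.GroupTheory.Rank
import Mathlib.GroupTheory.Schreier
import Mathlib.GroupTheory.FiniteAbelian.Basic
import Vale.Agent.P241.H122.Chains

/-!
# P241, block P4 (e): rank facts for finite commutative `p`-groups

`exists_surj_gens` : `V` maps onto `(ℤ/p)^k` and is generated by at most `k` elements, with
`k = Group.rank V`.
-/

set_option autoImplicit false

namespace Vale.Agent.P241.H122

theorem exists_surj_gens' {p : ℕ} [hp : Fact p.Prime] {V : Type} [CommGroup V] [Finite V]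
    (hV : IsPGroup p V) :
    ∃ k : ℕ, (∃ f : V →* (Fin k → Multiplicative (ZMod p)), Function.Surjective f) ∧
      ∃ T : Finset V, T.card ≤ k ∧ Subgroup.closure (T : Set V) = ⊤ := by
  classical
  obtain ⟨ι, hι, n, hn, ⟨e⟩⟩ := CommGroup.equiv_prod_multiplicative_zmod_of_finite V
  have hfin : ∀ i, Fact (1 < n i) := fun i => ⟨hn i⟩
  have hne : ∀ i, NeZero (n i) := fun i => ⟨by have := hn i; omega⟩
  have hdvd : ∀ i, p ∣ n i := by
    intro i
    have h1 : IsPGroup p (Multiplicative (ZMod (n i))) :=
      hV.of_surjective ((Pi.evalMonoidHom (fun i => Multiplicative (ZMod (n i))) i).comp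
        e.toMonoidHom) (by
          intro y
          refine ⟨e.symm (Function.update 1 i y), ?_⟩
          simp)
    obtain ⟨m, hm⟩ := (IsPGroup.iff_card).1 h1
    have h2 : Nat.card (Multiplicative (ZMod (n i))) = n i := by
      simp
    rw [h2] at hm
    cases m with
    | zero => rw [pow_zero] at hm; have := hn i; omega
    | succ m => exact hm ▸ Dvd.intro_left _ (pow_succ p m).symm
  refine ⟨Fintype.card ι, ?_, ?_⟩
  · let eι := Fintype.equivFin ι
    let g : (∀ i, Multiplicative (ZMod (n i))) →* (Fin (Fintype.card ι) → Multiplicative (ZMod p)) :=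
      MonoidHom.pi fun j =>
        (AddMonoidHom.toMultiplicative
          (ZMod.castHom (hdvd (eι.symm j)) (ZMod p)).toAddMonoidHom).comp
          (Pi.evalMonoidHom _ (eι.symm j))
    refine ⟨g.comp e.toMonoidHom, ?_⟩
    refine Function.Surjective.comp (g := g) ?_ e.surjective
    intro y
    have h3 : ∀ i, ∃ z : ZMod (n i), ZMod.castHom (hdvd i) (ZMod p) z =
        Multiplicative.toAdd (y (eι i)) := fun i => ZMod.castHom_surjective (hdvd i) _
    choose z hz using h3
    refine ⟨fun i => Multiplicative.ofAdd (z i), ?_⟩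
    funext j
    change Multiplicative.ofAdd (ZMod.castHom (hdvd (eι.symm j)) (ZMod p) (z (eι.symm j))) = y j
    rw [hz, Equiv.apply_symm_apply]
    rfl
  · refine ⟨Finset.univ.image fun i : ι =>
      e.symm (Pi.mulSingle i (Multiplicative.ofAdd (1 : ZMod (n i)))), ?_, ?_⟩
    · exact Finset.card_image_le.trans le_rfl
    · rw [eq_top_iff]
      intro v _
      have h4 : v = ∏ i, e.symm (Pi.mulSingle i (e v i)) := by
        rw [← map_prod, Finset.univ_prod_mulSingle, MulEquiv.symm_apply_apply]
      rw [h4]
      refine Subgroup.prod_mem _ fun i _ => ?_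
      have h5 : Pi.mulSingle i (e v i) =
          (Pi.mulSingle i (Multiplicative.ofAdd (1 : ZMod (n i))) :
            ∀ i, Multiplicative (ZMod (n i))) ^ (ZMod.val (Multiplicative.toAdd (e v i))) := by
        rw [← Pi.mulSingle_pow]
        congr 1
        change e v i = Multiplicative.ofAdd ((ZMod.val (Multiplicative.toAdd (e v i))) •
          (1 : ZMod (n i)))
        rw [nsmul_one, ZMod.natCast_zmod_val]
        rfl
      rw [h5, map_pow]
      exact Subgroup.pow_mem _ (Subgroup.subset_closure (Finset.mem_coe.2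
        (Finset.mem_image_of_mem _ (Finset.mem_univ i)))) _

theorem rank_pi_zmod {p : ℕ} [hp : Fact p.Prime] (k : ℕ) :
    k ≤ Group.rank (Fin k → Multiplicative (ZMod p)) := by
  have h4 : Nat.card (Fin k → Multiplicative (ZMod p)) ∣
      p ^ Group.rank (Fin k → Multiplicative (ZMod p)) := by
    refine card_dvd_exponent_pow_rank' _ fun x => ?_
    funext i
    change Multiplicative.ofAdd (p • Multiplicative.toAdd (x i)) = 1
    simp
  have h3 : Nat.card (Fin k → Multiplicative (ZMod p)) = p ^ k := by
    simp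
  rw [h3] at h4
  exact (Nat.pow_dvd_pow_iff_le_right hp.out.one_lt).1 h4

/-- A finite commutative `p`-group `V` maps onto `(ℤ/p)^k` and is generated by `k` elements, where
`k = Group.rank V`. -/
theorem exists_surj_gens {p : ℕ} [hp : Fact p.Prime] {V : Type} [CommGroup V] [Finite V]
    (hV : IsPGroup p V) :
    (∃ f : V →* (Fin (Group.rank V) → Multiplicative (ZMod p)), Function.Surjective f) ∧
      ∃ T : Finset V, T.card = Group.rank V ∧ Subgroup.closure (T : Set V) = ⊤ := by
  obtain ⟨k, ⟨f, hf⟩, T, hT, hT'⟩ := exists_surj_gens' (p := p) hV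
  have h1 : Group.rank V ≤ k := (Group.rank_le hT').trans hT
  have h2 : k ≤ Group.rank V :=
    (rank_pi_zmod k).trans (Group.rank_le_of_surjective f hf)
  obtain rfl : k = Group.rank V := le_antisymm h2 h1
  refine ⟨⟨f, hf⟩, ?_⟩
  exact Group.rank_spec V

theorem rank_pos {V : Type} [CommGroup V] [Finite V] [Nontrivial V] : 1 ≤ Group.rank V := by
  by_contra h
  obtain ⟨T, hT, hT'⟩ := Group.rank_spec V
  have h1 : T = ∅ := Finset.card_eq_zero.1 (by omega)
  rw [h1, Finset.coe_empty, Subgroup.closure_empty] at hT'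
  exact bot_ne_top hT'

/-- `ℓ(G, A) ≤ ℓ(G, B) + rank V` for the preimage `B` of a commutative subgroup `V` of
`N(A)/A`. -/
theorem ell_le_lift_rank {G : Type} [Group G] {p : ℕ} [Fact p.Prime] [Finite G]
    (hG : IsPGroup p G) {A : Subgroup G}
    {V : Subgroup (Subgroup.normalizer (A : Set G) ⧸
      A.subgroupOf (Subgroup.normalizer (A : Set G)))} (hc : ∀ x ∈ V, ∀ y ∈ V, x * y = y * x) :
    ell A ≤ ell (lift A V) + Group.rank V := by
  classical
  obtain ⟨T, hT, hT'⟩ := Group.rank_spec V
  have h1 : Subgroup.closure ((T.image V.subtype : Finset _) : Set (Subgroup.normalizer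
      (A : Set G) ⧸ A.subgroupOf (Subgroup.normalizer (A : Set G)))) = V := by
    rw [Finset.coe_image, ← MonoidHom.map_closure, hT', ← MonoidHom.range_eq_map,
      Subgroup.range_subtype]
  have h2 := ell_le_lift_card hG hc (T.image V.subtype) h1
  have h3 : (T.image V.subtype).card ≤ T.card := Finset.card_image_le
  omega

/-- The stage inequality used in the top-down induction: if `i + rank V < n + ℓ(G, A)` then
`i < n + ℓ(G, B)`, `B` the preimage of `V`. -/
theorem lt_add_ell_lift {G : Type} [Group G] {p : ℕ} [Fact p.Prime] [Finite G]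
    (hG : IsPGroup p G) {A : Subgroup G}
    {V : Subgroup (Subgroup.normalizer (A : Set G) ⧸
      A.subgroupOf (Subgroup.normalizer (A : Set G)))} (hc : ∀ x ∈ V, ∀ y ∈ V, x * y = y * x)
    {i n : ℕ} (hi : i + Group.rank V < n + ell A) : i < n + ell (lift A V) := by
  have h1 := ell_le_lift_rank hG hc
  omega

end Vale.Agent.P241.H122
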