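import Mathlib.GroupTheory.PGroup
import Mathlib.GroupTheory.Index
import Mathlib.GroupTheory.FiniteAbelian.Duality
import Mathlib.GroupTheory.SpecificGroups.Cyclic
import Mathlib.RingTheory.RootsOfUnity.AlgebraicallyClosed
import Mathlib.RingTheory.RootsOfUnity.Complex
import Mathlib.Analysis.Complex.Polynomial.Basic
import Mathlib.LinearAlgebra.UnitaryGroup
import Vale.Agent.P241.H122.Rank

/-!
# P241, block CHAR: group and character theory for (T1), (T2), (T3)

* `exists_char_of_lt` : a proper subgroup of a finite `p`-group lies in the kernel of a nontrivial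
  character of order `p`;
* `card_char` : a finite commutative `p`-group of rank `r` has exactly `p ^ r` characters of order
  dividing `p`;
* `exists_twist` : a finite noncommutative `p`-group has a unitary representation `ρ` of dimension
  `m` and a group `X` of more than `m` characters of order dividing `p` with `ρ ⊗ χ ≅ ρ`.
-/

set_option autoImplicit false

namespace Vale.Agent.P241.H122

open Matrix

/-! ### Monomial representations -/

section Mono

variable {V : Type} [Group V] {A : Subgroup V} (lam : A →* ℂˣ)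

open Classical in
/-- `lam` extended by `0`. -/
noncomputable def ext0 (g : V) : ℂ := if h : g ∈ A then (lam ⟨g, h⟩ : ℂ) else 0

variable {lam}

theorem ext0_mem {g : V} (h : g ∈ A) : ext0 lam g = (lam ⟨g, h⟩ : ℂ) := dif_pos h

theorem ext0_notMem {g : V} (h : g ∉ A) : ext0 lam g = 0 := dif_neg h

theorem ext0_one : ext0 lam 1 = 1 := by
  rw [ext0_mem A.one_mem]
  have h1 : (⟨1, A.one_mem⟩ : A) = 1 := rfl
  rw [h1, map_one]
  rfl

theorem ext0_mul_mem (g : V) {a : V} (ha : a ∈ A) :
    ext0 lam (g * a) = ext0 lam g * ext0 lam a := by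
  by_cases hg : g ∈ A
  · rw [ext0_mem hg, ext0_mem ha, ext0_mem (A.mul_mem hg ha), ← Units.val_mul, ← map_mul]
    rfl
  · rw [ext0_notMem hg, ext0_notMem (fun h => hg ((A.mul_mem_cancel_right ha).1 h)), zero_mul]

theorem ext0_mem_mul {a : V} (ha : a ∈ A) (g : V) :
    ext0 lam (a * g) = ext0 lam a * ext0 lam g := by
  by_cases hg : g ∈ A
  · rw [ext0_mem hg, ext0_mem ha, ext0_mem (A.mul_mem ha hg), ← Units.val_mul, ← map_mul]
    rfl
  · rw [ext0_notMem hg, ext0_notMem (fun h => hg ((A.mul_mem_cancel_left ha).1 h)), mul_zero]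

theorem ext0_inv [Finite A] (g : V) : ext0 lam g⁻¹ = star (ext0 lam g) := by
  by_cases hg : g ∈ A
  · rw [ext0_mem hg, ext0_mem (A.inv_mem hg)]
    have h1 : (⟨g⁻¹, A.inv_mem hg⟩ : A) = (⟨g, hg⟩ : A)⁻¹ := rfl
    rw [h1, map_inv, Units.val_inv_eq_inv_val]
    have h2 : (lam ⟨g, hg⟩ : ℂ) ^ Nat.card A = 1 := by
      rw [← Units.val_pow_eq_pow_val, ← map_pow, pow_card_eq_one', map_one, Units.val_one]
    have h3 : ‖(lam ⟨g, hg⟩ : ℂ)‖ = 1 := Complex.norm_eq_one_of_pow_eq_one h2 Nat.card_pos.ne'
    rw [Complex.inv_def, Complex.normSq_eq_norm_sq, h3]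
    simp
  · rw [ext0_notMem hg, ext0_notMem (fun h => hg (A.inv_mem_iff.1 h)), star_zero]

variable {J : Type} [Fintype J] [DecidableEq J] {s : J → V}

/-- The matrix of `v` in the representation induced from `lam`. -/
noncomputable def indMat (lam : A →* ℂˣ) (s : J → V) (v : V) : Matrix J J ℂ :=
  fun i j => ext0 lam ((s i)⁻¹ * v * s j)

variable (hs : Function.Bijective fun j : J => (QuotientGroup.mk (s j) : V ⧸ A))

include hs

omit [Fintype J] in
theorem indMat_one : indMat lam s 1 = 1 := by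
  ext i j
  change ext0 lam ((s i)⁻¹ * 1 * s j) = _
  rw [mul_one]
  by_cases h : i = j
  · subst h
    rw [inv_mul_cancel, ext0_one, Matrix.one_apply_eq]
  · rw [Matrix.one_apply_ne h, ext0_notMem]
    intro h1
    exact h (hs.1 (QuotientGroup.eq.2 h1))

omit [DecidableEq J] in
theorem indMat_mul (v w : V) : indMat lam s (v * w) = indMat lam s v * indMat lam s w := by
  ext i j
  rw [Matrix.mul_apply]
  obtain ⟨k, hk⟩ := hs.2 (QuotientGroup.mk (w * s j))
  have hk' : (s k)⁻¹ * (w * s j) ∈ A := QuotientGroup.eq.1 hk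
  rw [Finset.sum_eq_single k]
  · change ext0 lam ((s i)⁻¹ * (v * w) * s j) =
      ext0 lam ((s i)⁻¹ * v * s k) * ext0 lam ((s k)⁻¹ * w * s j)
    rw [mul_assoc (s k)⁻¹ w (s j), ← ext0_mul_mem _ hk']
    congr 1
    group
  · intro b _ hb
    have h1 : ext0 lam ((s b)⁻¹ * w * s j) = 0 := by
      apply ext0_notMem
      intro h2
      apply hb
      apply hs.1
      rw [mul_assoc] at h2
      exact (QuotientGroup.eq.2 h2).trans hk.symm
    change _ * ext0 lam ((s b)⁻¹ * w * s j) = 0
    rw [h1, mul_zero]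
  · intro h
    exact absurd (Finset.mem_univ k) h

omit [Fintype J] [DecidableEq J] hs in
theorem indMat_star [Finite A] (v : V) : star (indMat lam s v) = indMat lam s v⁻¹ := by
  ext i j
  change star (ext0 lam ((s j)⁻¹ * v * s i)) = ext0 lam ((s i)⁻¹ * v⁻¹ * s j)
  rw [← ext0_inv]
  congr 1
  group

/-- The induced representation. -/
noncomputable def indRep [Finite A] : V →* Matrix.unitaryGroup J ℂ where
  toFun v := ⟨indMat lam s v, by
    rw [Matrix.mem_unitaryGroup_iff, indMat_star, ← indMat_mul hs, mul_inv_cancel,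
      indMat_one hs]⟩
  map_one' := Subtype.ext (indMat_one hs)
  map_mul' v w := Subtype.ext (indMat_mul hs v w)

theorem indRep_central [Finite A] {c : V} (hc : c ∈ Subgroup.center V) (hA : c ∈ A) (v : V) :
    ((indRep (lam := lam) hs (c * v) : Matrix.unitaryGroup J ℂ) : Matrix J J ℂ) =
      (lam ⟨c, hA⟩ : ℂ) • ((indRep (lam := lam) hs v : Matrix.unitaryGroup J ℂ) :
        Matrix J J ℂ) := by
  ext i j
  change ext0 lam ((s i)⁻¹ * (c * v) * s j) = (lam ⟨c, hA⟩ : ℂ) * ext0 lam ((s i)⁻¹ * v * s j)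
  rw [← ext0_mem hA, ← ext0_mem_mul hA]
  congr 1
  rw [← mul_assoc, Subgroup.mem_center_iff.1 hc (s i)⁻¹]
  simp only [mul_assoc]

end Mono

/-! ### Characters of order `p` -/

section Char

variable {p : ℕ} [hp : Fact p.Prime]

theorem card_roots : Nat.card (rootsOfUnity p ℂ) = p :=
  have : NeZero p := ⟨hp.1.ne_zero⟩
  Complex.card_rootsOfUnity p

theorem finite_roots : Finite (rootsOfUnity p ℂ) :=
  Nat.finite_of_card_ne_zero (by rw [card_roots]; exact hp.1.ne_zero)

/-- `ℤ/p` is isomorphic to the `p`-th roots of unity. -/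
theorem nonempty_equiv_roots : Nonempty (Multiplicative (ZMod p) ≃* rootsOfUnity p ℂ) := by
  refine ⟨mulEquivOfPrimeCardEq (p := p) ?_ card_roots⟩
  rw [Nat.card_eq_fintype_card, Fintype.card_multiplicative, ZMod.card]

variable {V : Type} [Group V]

/-- A nontrivial character of order `p` is surjective. -/
theorem char_surjective {χ : V →* rootsOfUnity p ℂ} (h : χ ≠ 1) : Function.Surjective χ := by
  rw [← MonoidHom.range_eq_top]
  have h1 : Nat.card χ.range ∣ p := by
    have := χ.range.card_subgroup_dvd_card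
    rwa [card_roots] at this
  have := finite_roots (p := p)
  rcases (Nat.dvd_prime hp.1).1 h1 with h2 | h2
  · exfalso
    apply h
    have h3 : χ.range = ⊥ := Subgroup.card_eq_one.1 h2
    refine MonoidHom.ext fun v => ?_
    have h4 : χ v ∈ χ.range := ⟨v, rfl⟩
    rw [h3, Subgroup.mem_bot] at h4
    rw [h4]
    rfl
  · apply Subgroup.eq_top_of_card_eq
    rw [h2, card_roots]

/-- The kernel of a nontrivial character of order `p` has index `p`. -/
theorem char_ker_index {χ : V →* rootsOfUnity p ℂ} (h : χ ≠ 1) : χ.ker.index = p := by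
  rw [Subgroup.index_ker, MonoidHom.range_eq_top.2 (char_surjective h), Nat.card_congr
    (Subgroup.topEquiv (G := rootsOfUnity p ℂ)).toEquiv, card_roots]

/-- **(C1)** A proper subgroup of a finite `p`-group lies in the kernel of a nontrivial character
of order `p`. -/
theorem exists_char_of_lt [Finite V] (hV : IsPGroup p V) {B : Subgroup V} (hB : B < ⊤) :
    ∃ χ : V →* rootsOfUnity p ℂ, χ ≠ 1 ∧ B ≤ χ.ker := by
  obtain ⟨M, hM, hBM⟩ := (eq_top_or_exists_le_coatom B).resolve_left hB.ne
  have hnil : Group.IsNilpotent V := hV.isNilpotent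
  have hMn : M.Normal :=
    Subgroup.NormalizerCondition.normal_of_coatom M Group.normalizerCondition_of_isNilpotent hM
  have hnt : Nontrivial (V ⧸ M) := QuotientGroup.nontrivial_iff.2 hM.1
  have hdvd : p ∣ Nat.card (V ⧸ M) := by
    obtain ⟨n, hn0, hn⟩ := (hV.to_quotient M).nontrivial_iff_card.mp inferInstance
    exact hn.symm ▸ dvd_pow_self _ (ne_of_gt hn0)
  obtain ⟨x, hx⟩ := exists_prime_orderOf_dvd_card' p hdvd
  have hlt : M < (Subgroup.zpowers x).comap (QuotientGroup.mk' M) := by
    refine lt_of_le_of_ne ?_ ?_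
    · intro y hy
      rw [Subgroup.mem_comap, QuotientGroup.mk'_apply, (QuotientGroup.eq_one_iff y).2 hy]
      exact Subgroup.one_mem _
    · intro h
      obtain ⟨y, rfl⟩ := QuotientGroup.mk'_surjective M x
      have h1 : y ∈ (Subgroup.zpowers (QuotientGroup.mk' M y)).comap (QuotientGroup.mk' M) :=
        Subgroup.mem_zpowers _
      rw [← h] at h1
      have h2 : QuotientGroup.mk' M y = 1 := (QuotientGroup.eq_one_iff y).2 h1
      rw [h2, orderOf_one] at hx
      exact hp.1.one_lt.ne hx
  have htop := hM.2 _ hlt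
  have hz : Subgroup.zpowers x = ⊤ := by
    rw [eq_top_iff]
    intro y _
    obtain ⟨w, rfl⟩ := QuotientGroup.mk'_surjective M y
    have : w ∈ (Subgroup.zpowers x).comap (QuotientGroup.mk' M) := by
      rw [htop]
      trivial
    exact this
  have hcard : Nat.card (V ⧸ M) = p := by
    rw [← hx, ← Nat.card_zpowers, hz, Nat.card_congr (Subgroup.topEquiv (G := V ⧸ M)).toEquiv]
  let e : (V ⧸ M) ≃* rootsOfUnity p ℂ := mulEquivOfPrimeCardEq (p := p) hcard card_roots
  refine ⟨e.toMonoidHom.comp (QuotientGroup.mk' M), ?_, ?_⟩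
  · intro h
    obtain ⟨y, hy⟩ := QuotientGroup.mk'_surjective M x
    have h1 : e x = 1 := by
      rw [← hy]
      exact DFunLike.congr_fun h y
    rw [MulEquiv.map_eq_one_iff] at h1
    rw [h1, orderOf_one] at hx
    exact hp.1.one_lt.ne hx
  · refine hBM.trans ?_
    intro y hy
    rw [MonoidHom.mem_ker]
    change e (QuotientGroup.mk' M y) = 1
    rw [QuotientGroup.mk'_apply, (QuotientGroup.eq_one_iff y).2 hy, map_one]

end Char

theorem finite_char {p : ℕ} [hp : Fact p.Prime] (V : Type) [Group V] [Finite V] :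
    Finite (V →* rootsOfUnity p ℂ) :=
  have := finite_roots (p := p)
  Finite.of_injective (fun χ : V →* rootsOfUnity p ℂ => (χ : V → rootsOfUnity p ℂ))
    DFunLike.coe_injective

/-- **(C2)** A finite commutative `p`-group of rank `r` has exactly `p ^ r` characters of order
dividing `p`. -/
theorem card_char {p : ℕ} [hp : Fact p.Prime] {V : Type} [CommGroup V] [Finite V]
    (hV : IsPGroup p V) : Nat.card (V →* rootsOfUnity p ℂ) = p ^ Group.rank V := by
  obtain ⟨⟨f, hf⟩, T, hT, hT'⟩ := exists_surj_gens (p := p) hV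
  have := finite_roots (p := p)
  have := finite_char (p := p) V
  apply le_antisymm
  · have h1 : Function.Injective
        (fun (χ : V →* rootsOfUnity p ℂ) => (fun t : T => χ t : T → rootsOfUnity p ℂ)) := by
      intro χ ψ h
      refine MonoidHom.eq_of_eqOn_dense hT' ?_
      intro t ht
      exact congrFun h ⟨t, ht⟩
    have h2 := Nat.card_le_card_of_injective _ h1
    rw [Nat.card_fun, card_roots, Nat.card_eq_fintype_card (α := T), Fintype.card_coe, hT] at h2
    exact h2
  · obtain ⟨e⟩ := nonempty_equiv_roots (p := p)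
    let F : (Fin (Group.rank V) → ZMod p) → (V →* rootsOfUnity p ℂ) := fun a =>
      e.toMonoidHom.comp (MonoidHom.comp
        { toFun := fun x => Multiplicative.ofAdd (∑ i, a i * Multiplicative.toAdd (x i))
          map_one' := by simp
          map_mul' := fun x y => by
            simp only [Pi.mul_apply, toAdd_mul, mul_add, Finset.sum_add_distrib, ofAdd_add] } f)
    have hF : Function.Injective F := by
      intro a b hab
      funext i
      obtain ⟨v, hv⟩ := hf (Pi.mulSingle i (Multiplicative.ofAdd 1))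
      have h1 := DFunLike.congr_fun hab v
      have h2 : ∀ c : Fin (Group.rank V) → ZMod p,
          F c v = e (Multiplicative.ofAdd (c i)) := by
        intro c
        change e (Multiplicative.ofAdd (∑ j, c j * Multiplicative.toAdd (f v j))) = _
        rw [hv, Finset.sum_eq_single i]
        · simp
        · intro j _ hj
          rw [Pi.mulSingle_eq_of_ne hj]
          simp
        · intro h
          exact absurd (Finset.mem_univ i) h
      rw [h2, h2] at h1
      exact e.injective h1
    have h3 := Nat.card_le_card_of_injective F hF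
    rw [Nat.card_fun, Nat.card_eq_fintype_card, Nat.card_eq_fintype_card, ZMod.card,
      Fintype.card_fin] at h3
    exact h3

/-! ### The twist lemma -/

/-- `V` has a unitary representation `ρ` of dimension `m > 0` and a group of more than `m`
characters `χ` of order dividing `p` with `ρ ⊗ χ ≅ ρ`. -/
def HasTwist (p : ℕ) (V : Type) [Group V] : Prop :=
  ∃ (m : ℕ) (ρ : V →* Matrix.unitaryGroup (Fin m) ℂ) (X : Subgroup (V →* rootsOfUnity p ℂ)),
    0 < m ∧ m < Nat.card X ∧ ∀ χ ∈ X, ∃ P : Matrix.unitaryGroup (Fin m) ℂ, ∀ v : V,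
      ((P * ρ v * P⁻¹ : Matrix.unitaryGroup (Fin m) ℂ) : Matrix (Fin m) (Fin m) ℂ) =
        ((χ v : ℂˣ) : ℂ) • ((ρ v : Matrix.unitaryGroup (Fin m) ℂ) : Matrix (Fin m) (Fin m) ℂ)

theorem HasTwist.of_surjective {p : ℕ} {V Q : Type} [Group V] [Group Q]
    (f : V →* Q) (hf : Function.Surjective f) (h : HasTwist p Q) : HasTwist p V := by
  obtain ⟨m, ρ, X, hm, hX, hP⟩ := h
  have hinj : Function.Injective (MonoidHom.compHom' f : (Q →* rootsOfUnity p ℂ) →* _) := by
    intro χ ψ h
    refine MonoidHom.ext fun q => ?_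
    obtain ⟨v, rfl⟩ := hf q
    exact DFunLike.congr_fun h v
  refine ⟨m, ρ.comp f, X.map (MonoidHom.compHom' f), hm, ?_, ?_⟩
  · rwa [Subgroup.card_map_of_injective hinj]
  · rintro χ ⟨ψ, hψ, rfl⟩
    obtain ⟨P, hP⟩ := hP ψ hψ
    exact ⟨P, fun v => hP (f v)⟩

open scoped commutatorElement in
/-- The case of a group with central commutators of order `p`. -/
theorem HasTwist.of_central {p : ℕ} [hp : Fact p.Prime] {Q : Type} [Group Q] [Finite Q]
    {z x₀ : Q} (hz : z ∈ Subgroup.center Q) (hzp : orderOf z = p)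
    (hcom : ∀ x y : Q, ⁅x, y⁆ ∈ Subgroup.zpowers z) (hx₀ : x₀ ∉ Subgroup.center Q) :
    HasTwist p Q := by
  classical
  set A : Subgroup Q := Subgroup.center Q ⊔ Subgroup.zpowers x₀ with hA
  have hzA : Subgroup.zpowers z ≤ A := (Subgroup.zpowers_le.2 hz).trans le_sup_left
  have hzC : Subgroup.zpowers z ≤ Subgroup.center Q := Subgroup.zpowers_le.2 hz
  have h1 : A ≤ Subgroup.centralizer {x₀} :=
    sup_le (Subgroup.center_le_centralizer _) (Subgroup.zpowers_le.2
      (Subgroup.mem_centralizer_iff.2 fun h hh => by rw [Set.mem_singleton_iff.1 hh]))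
  have h2 : x₀ ∈ Subgroup.centralizer (A : Set Q) :=
    Subgroup.mem_centralizer_iff.2 fun a ha =>
      ((Subgroup.mem_centralizer_iff.1 (h1 ha)) x₀ rfl).symm
  have h3 : A ≤ Subgroup.centralizer (A : Set Q) :=
    sup_le (Subgroup.center_le_centralizer _) (Subgroup.zpowers_le.2 h2)
  let iA : CommGroup A :=
    { (inferInstance : Group A) with
      mul_comm := fun a b => Subtype.ext ((Subgroup.mem_centralizer_iff.1 (h3 b.2)) a a.2) }
  have hz1 : (⟨z, hzA (Subgroup.mem_zpowers z)⟩ : A) ≠ 1 := by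
    intro h
    have h4 : z = 1 := congrArg Subtype.val h
    rw [h4, orderOf_one] at hzp
    exact hp.1.one_lt.ne hzp
  obtain ⟨lam, hlam⟩ := CommGroup.exists_apply_ne_one_of_hasEnoughRootsOfUnity A ℂ hz1
  -- `lam` is injective on `⟨z⟩`
  have hinj : ∀ y (hy : y ∈ Subgroup.zpowers z), lam ⟨y, hzA hy⟩ = 1 → y = 1 := by
    intro y hy h
    have hc : Fact (Nat.card (Subgroup.zpowers z)).Prime := ⟨by
      rw [Nat.card_zpowers, hzp]
      exact hp.1⟩
    let g : Subgroup.zpowers z →* ℂˣ := lam.comp (Subgroup.inclusion hzA)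
    rcases g.ker.eq_bot_or_eq_top_of_prime_card with h4 | h4
    · have h5 : (⟨y, hy⟩ : Subgroup.zpowers z) ∈ g.ker := h
      rw [h4, Subgroup.mem_bot] at h5
      exact congrArg Subtype.val h5
    · exfalso
      have h5 : (⟨z, Subgroup.mem_zpowers z⟩ : Subgroup.zpowers z) ∈ g.ker := by
        rw [h4]
        trivial
      exact hlam h5
  have hcomm : ∀ x y w : Q, ⁅x, y⁆ * w = w * ⁅x, y⁆ := fun x y w =>
    (Subgroup.mem_center_iff.1 (hzC (hcom x y)) w).symm
  -- the pairing
  let c : Q → Q → rootsOfUnity p ℂ := fun x v =>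
    ⟨lam ⟨⁅x, v⁆, hzA (hcom x v)⟩, by
      rw [mem_rootsOfUnity, ← map_pow]
      have h4 : (⟨⁅x, v⁆, hzA (hcom x v)⟩ : A) ^ p = 1 := by
        apply Subtype.ext
        obtain ⟨k, hk⟩ := Subgroup.mem_zpowers_iff.1 (hcom x v)
        change ⁅x, v⁆ ^ p = 1
        rw [← hk, ← zpow_natCast, ← zpow_mul, mul_comm, zpow_mul, zpow_natCast, ← hzp,
          pow_orderOf_eq_one, one_zpow]
      rw [h4, map_one]⟩
  have hcr : ∀ x v w, c x (v * w) = c x v * c x w := by
    intro x v w
    apply Subtype.ext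
    change lam _ = lam _ * lam _
    rw [← map_mul]
    congr 1
    apply Subtype.ext
    change ⁅x, v * w⁆ = ⁅x, v⁆ * ⁅x, w⁆
    have h4 : x * w * x⁻¹ * w⁻¹ * v = v * (x * w * x⁻¹ * w⁻¹) := hcomm x w v
    change x * (v * w) * x⁻¹ * (v * w)⁻¹ = x * v * x⁻¹ * v⁻¹ * (x * w * x⁻¹ * w⁻¹)
    calc x * (v * w) * x⁻¹ * (v * w)⁻¹
        = x * v * x⁻¹ * ((x * w * x⁻¹ * w⁻¹) * v⁻¹) := by group
      _ = x * v * x⁻¹ * (v⁻¹ * (v * (x * w * x⁻¹ * w⁻¹)) * v⁻¹) := by group
      _ = x * v * x⁻¹ * (v⁻¹ * ((x * w * x⁻¹ * w⁻¹) * v) * v⁻¹) := by rw [h4]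
      _ = x * v * x⁻¹ * v⁻¹ * (x * w * x⁻¹ * w⁻¹) := by group
  have hcl : ∀ x y v, c (x * y) v = c x v * c y v := by
    intro x y v
    apply Subtype.ext
    change lam _ = lam _ * lam _
    rw [← map_mul]
    congr 1
    apply Subtype.ext
    change ⁅x * y, v⁆ = ⁅x, v⁆ * ⁅y, v⁆
    have h4 : y * v * y⁻¹ * v⁻¹ * x = x * (y * v * y⁻¹ * v⁻¹) := hcomm y v x
    rw [← hcomm y v ⁅x, v⁆]
    change x * y * v * (x * y)⁻¹ * v⁻¹ = (y * v * y⁻¹ * v⁻¹) * (x * v * x⁻¹ * v⁻¹)
    calc x * y * v * (x * y)⁻¹ * v⁻¹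
        = x * (y * v * y⁻¹ * v⁻¹) * v * x⁻¹ * v⁻¹ := by group
      _ = (y * v * y⁻¹ * v⁻¹) * x * v * x⁻¹ * v⁻¹ := by rw [h4]
      _ = (y * v * y⁻¹ * v⁻¹) * (x * v * x⁻¹ * v⁻¹) := by group
  let C : Q →* (Q →* rootsOfUnity p ℂ) := MonoidHom.mk'
    (fun x => MonoidHom.mk' (c x) (hcr x)) (fun x y => MonoidHom.ext fun v => hcl x y v)
  have hker : C.ker = Subgroup.center Q := by
    ext x
    rw [MonoidHom.mem_ker, Subgroup.mem_center_iff]
    constructor
    · intro h g
      have h4 : c x g = 1 := DFunLike.congr_fun h g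
      have h5 : ⁅x, g⁆ = 1 := hinj _ (hcom x g) (congrArg Subtype.val h4)
      exact (commutatorElement_eq_one_iff_mul_comm.1 h5).symm
    · intro h
      refine MonoidHom.ext fun g => ?_
      apply Subtype.ext
      have h5 : (⟨⁅x, g⁆, hzA (hcom x g)⟩ : A) = 1 :=
        Subtype.ext (commutatorElement_eq_one_iff_mul_comm.2 (h g).symm)
      change lam ⟨⁅x, g⁆, hzA (hcom x g)⟩ = 1
      rw [h5, map_one]
  have hidx : A.index ≠ 0 := Subgroup.index_ne_zero_of_finite
  -- coset representatives
  let e : Fin A.index ≃ Q ⧸ A := (Finite.equivFinOfCardEq rfl).symm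
  let s : Fin A.index → Q := fun j => (e j).out
  have hs : Function.Bijective fun j => (QuotientGroup.mk (s j) : Q ⧸ A) := by
    have h4 : (fun j => (QuotientGroup.mk (s j) : Q ⧸ A)) = e := by
      funext j
      exact QuotientGroup.out_eq' (e j)
    rw [h4]
    exact e.bijective
  refine ⟨A.index, indRep (lam := lam) hs, C.range, Nat.pos_of_ne_zero hidx, ?_, ?_⟩
  · rw [← Subgroup.index_ker, hker, ← Subgroup.relIndex_mul_index
      (le_sup_left : Subgroup.center Q ≤ A)]
    have h4 : (Subgroup.center Q).relIndex A ≠ 1 := by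
      rw [Ne, Subgroup.relIndex_eq_one]
      intro h5
      exact hx₀ (h5 ((le_sup_right : Subgroup.zpowers x₀ ≤ A) (Subgroup.mem_zpowers x₀)))
    have h5 : (Subgroup.center Q).relIndex A ≠ 0 := by
      intro h6
      have h7 := Subgroup.relIndex_mul_index (le_sup_left : Subgroup.center Q ≤ A)
      rw [h6, zero_mul] at h7
      exact Subgroup.index_ne_zero_of_finite h7.symm
    have h6 : 2 ≤ (Subgroup.center Q).relIndex A := by omega
    calc A.index < 2 * A.index := by omega
      _ ≤ _ := Nat.mul_le_mul_right _ h6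
  · rintro χ ⟨x, rfl⟩
    refine ⟨indRep (lam := lam) hs x, fun v => ?_⟩
    rw [← map_inv, ← map_mul, ← map_mul]
    have h4 : x * v * x⁻¹ = ⁅x, v⁆ * v := by
      rw [commutatorElement_def]
      group
    rw [h4, indRep_central hs (hzC (hcom x v)) (hzA (hcom x v)) v]
    rfl

/-- **(C3)** The twist lemma. -/
theorem exists_twist {p : ℕ} [hp : Fact p.Prime] {V : Type} [Group V] [Finite V]
    (hV : IsPGroup p V) (hnc : ¬ ∀ x y : V, x * y = y * x) : HasTwist p V := by
  induction hn : Nat.card V using Nat.strong_induction_on generalizing V with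
  | _ n ih =>
    subst hn
    have hnt : Nontrivial V := by
      by_contra h
      rw [not_nontrivial_iff_subsingleton] at h
      exact hnc fun x y => Subsingleton.elim _ _
    have hct := hV.center_nontrivial
    have hdvd : p ∣ Nat.card (Subgroup.center V) := by
      obtain ⟨n, hn0, hn⟩ := (hV.to_subgroup (Subgroup.center V)).nontrivial_iff_card.mp
        inferInstance
      exact hn.symm ▸ dvd_pow_self _ (ne_of_gt hn0)
    obtain ⟨z, hz⟩ := exists_prime_orderOf_dvd_card' p hdvd
    have hzp : orderOf (z : V) = p := by rw [Subgroup.orderOf_coe, hz]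
    have hN : (Subgroup.zpowers (z : V)).Normal := by
      refine ⟨fun a ha g => ?_⟩
      have h1 : a ∈ Subgroup.center V := (Subgroup.zpowers_le.2 z.2) ha
      rw [Subgroup.mem_center_iff.1 h1 g, mul_inv_cancel_right]
      exact ha
    by_cases hq : ∀ x y : V ⧸ Subgroup.zpowers (z : V), x * y = y * x
    · have hx : ∃ x₀ : V, x₀ ∉ Subgroup.center V := by
        by_contra h
        push Not at h
        exact hnc fun x y => (Subgroup.mem_center_iff.1 (h x) y).symm
      obtain ⟨x₀, hx₀⟩ := hx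
      refine HasTwist.of_central z.2 hzp (fun x y => ?_) hx₀
      rw [← QuotientGroup.eq_one_iff]
      have h1 := hq (QuotientGroup.mk x) (QuotientGroup.mk y)
      change (QuotientGroup.mk' (Subgroup.zpowers (z : V))) (x * y * x⁻¹ * y⁻¹) = 1
      rw [map_mul, map_mul, map_mul, map_inv, map_inv]
      change (QuotientGroup.mk x : V ⧸ Subgroup.zpowers (z : V)) * QuotientGroup.mk y *
        (QuotientGroup.mk x)⁻¹ * (QuotientGroup.mk y)⁻¹ = 1
      rw [h1]
      group
    · refine HasTwist.of_surjective (QuotientGroup.mk' (Subgroup.zpowers (z : V)))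
        (QuotientGroup.mk'_surjective _) (ih _ ?_ (hV.to_quotient _) hq rfl)
      have h1 := Subgroup.card_eq_card_quotient_mul_card_subgroup (Subgroup.zpowers (z : V))
      rw [Nat.card_zpowers, hzp] at h1
      rw [h1]
      have h2 : 0 < Nat.card (V ⧸ Subgroup.zpowers (z : V)) := Nat.card_pos
      have h3 := hp.1.two_le
      nlinarith

end Vale.Agent.P241.H122
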